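import Vale.Agent.P038.H110.Star2

/-!
# P038: (★) and (G) are contradictory (helper110)
-/

namespace Vale.Agent.P038.H110

open Finset

universe u

variable {V : Type u} [DecidableEq V] [Fintype V]

/-- double counting -/
theorem dc (w : V → ℝ) (R : V → Finset V) :
    ∑ b, w b * W w (univ.filter fun x => b ∈ R x) = ∑ x, w x * W w (R x) := by
  have h1 : ∀ b, w b * W w (univ.filter fun x => b ∈ R x) =
      ∑ x, if b ∈ R x then w b * w x else 0 := by
    intro b
    unfold W
    rw [Finset.mul_sum, Finset.sum_filter]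
  have h2 : ∀ x, w x * W w (R x) = ∑ b, if b ∈ R x then w b * w x else 0 := by
    intro x
    unfold W
    rw [Finset.mul_sum, ← Finset.sum_filter]
    refine Finset.sum_congr ?_ fun b _ => mul_comm _ _
    ext b
    simp
  rw [Finset.sum_congr rfl fun b _ => h1 b, Finset.sum_congr rfl fun x _ => h2 x,
    Finset.sum_comm]

/-- outer feasibility -/
structure Feas (N : V → Finset V) (B U : V → Finset V) : Prop where
  nB : ∀ a, N a ⊆ B a
  BU : ∀ a, B a ⊆ U a
  or : ∀ a b, b ∈ U a → a ∈ N b → a = b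

/-- outer cost -/
noncomputable def oc (N : V → Finset V) (w : V → ℝ) (B U : V → Finset V) : ℝ :=
  ∑ z, w z * (W w (nb N (B z)) - W w (B z)) + ∑ z, w z * (W w (U z) - W w (AA N U z))

theorem subset_nb {N : V → Finset V} (hr : ∀ a, a ∈ N a) (S : Finset V) : S ⊆ nb N S :=
  fun x hx => mem_nb.2 ⟨x, hx, hr x⟩

theorem AA_sub {N : V → Finset V} (hr : ∀ a, a ∈ N a) (U : V → Finset V) (z : V) :
    AA N U z ⊆ U z := fun _ hx => mem_AA.1 hx z (hr z)

theorem AA_mono {N : V → Finset V} {B U : V → Finset V} (h : ∀ a, B a ⊆ U a) (z : V) :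
    AA N B z ⊆ AA N U z := fun _ hx => mem_AA.2 fun z' hz' => h z' (mem_AA.1 hx z' hz')

theorem row_of_min {N : V → Finset V} {w : V → ℝ} (hw : ∀ a, 0 < w a) {B U : V → Finset V}
    (hf : Feas N B U) (hmin : ∀ B' U', Feas N B' U' → oc N w B U ≤ oc N w B' U') :
    ∀ z, ∀ T ⊆ U z \ B z, W w T ≤ W w (nb N T \ nb N (B z)) := by
  intro z T hT
  have hT1 : T ⊆ U z := fun x hx => (mem_sdiff.1 (hT hx)).1
  have hT2 : Disjoint (B z) T := by
    rw [Finset.disjoint_left]
    exact fun x hx hx' => (mem_sdiff.1 (hT hx')).2 hx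
  have hf' : Feas N (Function.update B z (B z ∪ T)) U := by
    refine ⟨fun a => ?_, fun a => ?_, hf.or⟩
    · by_cases h : a = z
      · subst h
        rw [Function.update_self]
        exact (hf.nB a).trans subset_union_left
      · rw [Function.update_of_ne h]
        exact hf.nB a
    · by_cases h : a = z
      · subst h
        rw [Function.update_self]
        exact union_subset (hf.BU a) hT1
      · rw [Function.update_of_ne h]
        exact hf.BU a
  have h1 := hmin _ _ hf'
  unfold oc at h1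
  have h2 : ∑ a, w a * (W w (nb N (Function.update B z (B z ∪ T) a)) -
      W w (Function.update B z (B z ∪ T) a)) - ∑ a, w a * (W w (nb N (B a)) - W w (B a)) =
      w z * ((W w (nb N (B z ∪ T)) - W w (B z ∪ T)) - (W w (nb N (B z)) - W w (B z))) := by
    rw [← Finset.sum_sub_distrib, Finset.sum_eq_single z]
    · rw [Function.update_self]
      ring
    · intro a _ h
      rw [Function.update_of_ne h]
      ring
    · intro h
      exact absurd (mem_univ z) h
  have h3 : 0 ≤ w z * ((W w (nb N (B z ∪ T)) - W w (B z ∪ T)) -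
      (W w (nb N (B z)) - W w (B z))) := by
    rw [← h2]
    linarith
  have h4 : 0 ≤ (W w (nb N (B z ∪ T)) - W w (B z ∪ T)) - (W w (nb N (B z)) - W w (B z)) :=
    nonneg_of_mul_nonneg_right h3 (hw z)
  rw [W_union hT2] at h4
  have h5 : nb N (B z ∪ T) = nb N (B z) ∪ (nb N T \ nb N (B z)) := by
    rw [union_sdiff_self_eq_union]
    exact Finset.union_biUnion
  rw [h5, W_union disjoint_sdiff] at h4
  linarith

theorem col_of_min {N : V → Finset V} {w : V → ℝ} (hw : ∀ a, 0 < w a) {B U : V → Finset V}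
    (hf : Feas N B U) (hmin : ∀ B' U', Feas N B' U' → oc N w B U ≤ oc N w B' U') :
    ∀ x, ∀ T : Finset V, (∀ z ∈ T, x ∈ U z ∧ x ∉ B z) →
      W w T ≤ W w ((nb N T).filter fun z => x ∈ AA N U z) := by
  intro x T hT
  have hw0 : ∀ a, 0 ≤ w a := fun a => (hw a).le
  set U' : V → Finset V := fun z => if z ∈ T then U z \ {x} else U z with hU'
  have hsub : ∀ z, U' z ⊆ U z := by
    intro z
    simp only [hU']
    split_ifs
    · exact sdiff_subset
    · exact Subset.rfl
  have hf' : Feas N B U' := by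
    refine ⟨hf.nB, fun a => ?_, fun a b hb h => hf.or a b (hsub a hb) h⟩
    simp only [hU']
    split_ifs with h
    · intro y hy
      rw [mem_sdiff, mem_singleton]
      exact ⟨hf.BU a hy, fun e => (hT a h).2 (e ▸ hy)⟩
    · exact hf.BU a
  have h1 := hmin _ _ hf'
  unfold oc at h1
  have h2 : ∀ z, W w (U' z) = W w (U z) - (if z ∈ T then w x else 0) := by
    intro z
    simp only [hU']
    split_ifs with h
    · rw [W_sdiff (singleton_subset_iff.2 (hT z h).1), W_singleton]
    · ring
  have h3 : ∀ z, W w (AA N U z) - W w (AA N U' z) ≤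
      if z ∈ (nb N T).filter (fun z => x ∈ AA N U z) then w x else 0 := by
    intro z
    split_ifs with h
    · have hs : AA N U z ⊆ AA N U' z ∪ {x} := by
        intro y hy
        by_cases e : y = x
        · exact mem_union_right _ (mem_singleton.2 e)
        · refine mem_union_left _ (mem_AA.2 fun z' hz' => ?_)
          have := mem_AA.1 hy z' hz'
          simp only [hU']
          split_ifs
          · exact mem_sdiff.2 ⟨this, fun h => e (mem_singleton.1 h)⟩
          · exact this
      have := (W_mono hw0 hs).trans (W_union_le hw0 _ _)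
      rw [W_singleton] at this
      linarith
    · have hs : AA N U z ⊆ AA N U' z := by
        intro y hy
        refine mem_AA.2 fun z' hz' => ?_
        have hy' := mem_AA.1 hy z' hz'
        simp only [hU']
        split_ifs with h'
        · refine mem_sdiff.2 ⟨hy', fun e => h ?_⟩
          rw [mem_singleton] at e
          subst e
          exact mem_filter.2 ⟨mem_nb.2 ⟨z', h', hz'⟩, hy⟩
        · exact hy'
      have := W_mono hw0 hs
      linarith
  have h4 : ∑ z, w z * (W w (U' z) - W w (AA N U' z)) ≤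
      ∑ z, w z * (W w (U z) - W w (AA N U z)) +
        (W w ((nb N T).filter fun z => x ∈ AA N U z) * w x - W w T * w x) := by
    have e1 : W w ((nb N T).filter fun z => x ∈ AA N U z) * w x =
        ∑ z, w z * (if z ∈ (nb N T).filter (fun z => x ∈ AA N U z) then w x else 0) := by
      unfold W
      rw [Finset.sum_mul]
      simp only [mul_ite, mul_zero]
      rw [← Finset.sum_filter]
      refine Finset.sum_congr ?_ fun _ _ => rfl
      ext z
      simp
    have e2 : W w T * w x = ∑ z, w z * (if z ∈ T then w x else 0) := by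
      unfold W
      rw [Finset.sum_mul]
      simp only [mul_ite, mul_zero]
      rw [← Finset.sum_filter]
      refine Finset.sum_congr ?_ fun _ _ => rfl
      ext z
      simp
    rw [e1, e2, ← Finset.sum_sub_distrib, ← Finset.sum_add_distrib]
    refine Finset.sum_le_sum fun z _ => ?_
    have h5 := mul_le_mul_of_nonneg_left (h3 z) (hw0 z)
    rw [h2 z]
    linarith
  have h6 : W w T * w x ≤ W w ((nb N T).filter fun z => x ∈ AA N U z) * w x := by
    linarith
  exact le_of_mul_le_mul_right h6 (hw x)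

/-- (CHEB) -/
theorem cheb {N : V → Finset V} {w : V → ℝ} (hw : ∀ a, 0 < w a) {B U : V → Finset V}
    (hf : Feas N B U) (hmin : ∀ B' U', Feas N B' U' → oc N w B U ≤ oc N w B' U') :
    ∑ z, w z * (W w (nb N (AA N B z)) - W w (AA N B z)) +
      ∑ z, w z * (W w (nb N (U z)) - W w (nb N (AA N U z))) ≤ oc N w B U := by
  have hw0 : ∀ a, 0 ≤ w a := fun a => (hw a).le
  have h := star hw0 (row_of_min hw hf hmin) (col_of_min hw hf hmin)
  have hP : ∀ z, W w (PP N B U z) = W w (AA N U z) - W w (AA N B z) := by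
    intro z
    rw [← W_sdiff (AA_mono hf.BU z)]
    congr 1
    ext x
    rw [mem_PP, mem_sdiff, mem_AA, mem_AA]
    push_neg
    rfl
  have hQ : ∀ z, W w (QQ N B U z) = W w (nb N (U z)) - W w (nb N (B z)) := by
    intro z
    rw [← W_sdiff (nb_mono (hf.BU z))]
    congr 1
    ext x
    rw [QQ, mem_sdiff, mem_sdiff]
    constructor
    · rintro ⟨h, hx⟩
      obtain ⟨y, hy, hxy⟩ := mem_nb.1 h
      exact ⟨mem_nb.2 ⟨y, (mem_sdiff.1 hy).1, hxy⟩, hx⟩
    · rintro ⟨h, hx⟩
      obtain ⟨y, hy, hxy⟩ := mem_nb.1 h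
      exact ⟨mem_nb.2 ⟨y, mem_sdiff.2 ⟨hy, fun h => hx (mem_nb.2 ⟨y, h, hxy⟩)⟩, hxy⟩, hx⟩
  have hK : ∀ z, W w (KK N B U z) ≤ W w (nb N (AA N U z)) - W w (nb N (AA N B z)) := by
    intro z
    rw [← W_sdiff (nb_mono (AA_mono hf.BU z))]
    refine W_mono hw0 ?_
    intro x hx
    rw [KK, mem_sdiff] at hx
    rw [mem_sdiff]
    refine ⟨nb_mono (filter_subset _ _) hx.1, fun h => hx.2 (mem_bt.2 fun z' hz' => ?_)⟩
    obtain ⟨y, hy, hxy⟩ := mem_nb.1 h
    exact mem_nb.2 ⟨y, mem_AA.1 hy z' hz', hxy⟩
  have hUB : ∀ z, W w (U z \ B z) = W w (U z) - W w (B z) := fun z => W_sdiff (hf.BU z)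
  have h1 : ∑ z, w z * (W w (KK N B U z) + W w (U z \ B z)) ≤
      ∑ z, w z * ((W w (nb N (AA N U z)) - W w (nb N (AA N B z))) + (W w (U z) - W w (B z))) := by
    refine Finset.sum_le_sum fun z _ => mul_le_mul_of_nonneg_left ?_ (hw0 z)
    have := hK z
    have := hUB z
    linarith
  have h2 : ∑ z, w z * (W w (PP N B U z) + W w (QQ N B U z)) =
      ∑ z, w z * ((W w (AA N U z) - W w (AA N B z)) + (W w (nb N (U z)) - W w (nb N (B z)))) :=
    Finset.sum_congr rfl fun z _ => by rw [hP z, hQ z]
  have h3 := h.trans h1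
  rw [h2] at h3
  unfold oc
  have h4 : ∑ z, w z * (W w (nb N (AA N B z)) - W w (AA N B z)) +
      ∑ z, w z * (W w (nb N (U z)) - W w (nb N (AA N U z))) -
      (∑ z, w z * (W w (nb N (B z)) - W w (B z)) + ∑ z, w z * (W w (U z) - W w (AA N U z))) =
      ∑ z, w z * ((W w (AA N U z) - W w (AA N B z)) + (W w (nb N (U z)) - W w (nb N (B z)))) -
      ∑ z, w z * ((W w (nb N (AA N U z)) - W w (nb N (AA N B z))) + (W w (U z) - W w (B z))) := by
    rw [← Finset.sum_add_distrib, ← Finset.sum_add_distrib, ← Finset.sum_sub_distrib,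
      ← Finset.sum_sub_distrib]
    exact Finset.sum_congr rfl fun z _ => by ring
  linarith

/-- the second family -/
def YY (N U : V → Finset V) (b : V) : Finset V :=
  univ.filter fun x => ∀ y ∈ N x, y = b ∨ b ∉ nb N (AA N U y)

theorem mem_YY {N U : V → Finset V} {b x : V} :
    x ∈ YY N U b ↔ ∀ y ∈ N x, y = b ∨ b ∉ nb N (AA N U y) := by
  simp [YY]

theorem no_G' [Nonempty V] {N : V → Finset V} (hr : ∀ a, a ∈ N a)
    (hor : ∀ a b, b ∈ N a → a ∈ N b → a = b) {w : V → ℝ} (hw : ∀ a, 0 < w a)
    (hG : ∀ (a : V) (X : Finset V), a ∈ X → (∀ z, a ∈ N z → z ≠ a → z ∉ nb N X) →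
      W w (nb N (nb N X) \ nb N X) < W w (nb N X \ X)) : False := by
  classical
  have hw0 : ∀ a, 0 ≤ w a := fun a => (hw a).le
  -- a minimiser
  obtain ⟨⟨B, U⟩, hBU, hmin0⟩ := Finset.exists_min_image
    (univ.filter fun q : (V → Finset V) × (V → Finset V) => Feas N q.1 q.2)
    (fun q => oc N w q.1 q.2)
    ⟨(N, fun a => univ.filter fun b => a ∈ N b → a = b), by
      rw [mem_filter]
      refine ⟨mem_univ _, fun a => Subset.rfl, fun a b hb => ?_, fun a b hb h => ?_⟩
      · rw [mem_filter]
        exact ⟨mem_univ _, fun h => hor a b hb h⟩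
      · exact (mem_filter.1 hb).2 h⟩
  have hf : Feas N B U := (mem_filter.1 hBU).2
  have hmin : ∀ B' U', Feas N B' U' → oc N w B U ≤ oc N w B' U' := fun B' U' h =>
    hmin0 (B', U') (mem_filter.2 ⟨mem_univ _, h⟩)
  have hch := cheb hw hf hmin
  -- the first family
  have hX1 : ∀ a, a ∈ AA N B a := fun a => mem_AA.2 fun z hz => hf.nB z hz
  have hX2 : ∀ a z, a ∈ N z → z ≠ a → z ∉ nb N (AA N B a) := by
    intro a z hz hne h
    obtain ⟨x, hx, hzx⟩ := mem_nb.1 h
    have h1 : x ∈ U z := hf.BU z (mem_AA.1 hx z hz)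
    have h2 : z = x := hf.or z x h1 hzx
    subst h2
    exact hne (hf.or a z (hf.BU a (AA_sub hr B a hx)) hz).symm
  -- the second family
  have hUd : ∀ a, a ∈ AA N U a := fun a => AA_mono hf.BU a (hX1 a)
  have hY1 : ∀ b, b ∈ YY N U b := by
    intro b
    rw [mem_YY]
    intro y hy
    by_cases e : y = b
    · exact Or.inl e
    · refine Or.inr fun h => ?_
      obtain ⟨t, ht, hbt⟩ := mem_nb.1 h
      have h1 : t ∈ U b := mem_AA.1 ht b hy
      have h2 : b = t := hf.or b t h1 hbt
      subst h2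
      exact e (hf.or y b (AA_sub hr U y ht) hy)
  have hY2 : ∀ b z, b ∈ N z → z ≠ b → z ∉ nb N (YY N U b) := by
    intro b z hz hne h
    obtain ⟨x, hx, hzx⟩ := mem_nb.1 h
    rcases mem_YY.1 hx z hzx with h1 | h1
    · exact hne h1
    · exact h1 (mem_nb.2 ⟨z, hUd z, hz⟩)
  -- inner cost of the second family
  have hYc : ∑ b, w b * (W w (nb N (YY N U b)) - W w (YY N U b)) ≤
      ∑ z, w z * (W w (nb N (U z)) - W w (nb N (AA N U z))) := by
    have e1 : ∑ z, w z * (W w (nb N (U z)) - W w (nb N (AA N U z))) =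
        ∑ b, w b * (W w (univ.filter fun x => b ∈ nb N (U x)) -
          W w (univ.filter fun x => b ∈ nb N (AA N U x))) := by
      simp only [mul_sub]
      rw [Finset.sum_sub_distrib, Finset.sum_sub_distrib, dc w (fun x => nb N (U x)),
        dc w (fun x => nb N (AA N U x))]
    rw [e1]
    refine Finset.sum_le_sum fun b _ => mul_le_mul_of_nonneg_left ?_ (hw0 b)
    -- `Y ∪ {x | b ∈ nb (U x)} ` covers; 
    have s1 : W w univ ≤ W w (YY N U b) +
        W w ((univ.filter fun x => b ∈ nb N (U x)) \ {b}) := by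
      refine (W_mono hw0 (T := YY N U b ∪ ((univ.filter fun x => b ∈ nb N (U x)) \ {b})) ?_).trans
        (W_union_le hw0 _ _)
      intro x _
      by_cases hx : x ∈ YY N U b
      · exact mem_union_left _ hx
      · refine mem_union_right _ ?_
        have hxb : x ≠ b := fun e => hx (e ▸ hY1 b)
        rw [mem_YY] at hx
        push_neg at hx
        obtain ⟨y, hy, hyb, h⟩ := hx
        obtain ⟨t, ht, hbt⟩ := mem_nb.1 h
        rw [mem_sdiff, mem_filter, mem_singleton]
        exact ⟨⟨mem_univ _, mem_nb.2 ⟨t, mem_AA.1 ht x hy, hbt⟩⟩, hxb⟩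
    have s2 : W w (nb N (YY N U b)) +
        W w ((univ.filter fun x => b ∈ nb N (AA N U x)) \ {b}) ≤ W w univ := by
      refine W_two hw0 ?_ (subset_univ _) (subset_univ _)
      rw [Finset.disjoint_left]
      intro y hy hy'
      rw [mem_sdiff, mem_filter, mem_singleton] at hy'
      obtain ⟨x, hx, hyx⟩ := mem_nb.1 hy
      rcases mem_YY.1 hx y hyx with h1 | h1
      · exact hy'.2 h1
      · exact h1 hy'.1.2
    have s3 : W w ((univ.filter fun x => b ∈ nb N (U x)) \ {b}) =
        W w (univ.filter fun x => b ∈ nb N (U x)) - w b := by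
      rw [W_sdiff, W_singleton]
      rw [singleton_subset_iff, mem_filter]
      exact ⟨mem_univ _, mem_nb.2 ⟨b, AA_sub hr U b (hUd b), hr b⟩⟩
    have s4 : W w ((univ.filter fun x => b ∈ nb N (AA N U x)) \ {b}) =
        W w (univ.filter fun x => b ∈ nb N (AA N U x)) - w b := by
      rw [W_sdiff, W_singleton]
      rw [singleton_subset_iff, mem_filter]
      exact ⟨mem_univ _, mem_nb.2 ⟨b, hUd b, hr b⟩⟩
    linarith
  -- the new outer pair
  set B' : V → Finset V := fun a => nb N (AA N B a) with hB'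
  set U' : V → Finset V := fun a => univ.filter fun b => a = b ∨ a ∉ nb N (YY N U b) with hU'
  have hf' : Feas N B' U' := by
    refine ⟨fun a x hx => ?_, fun a b hb => ?_, fun a b hb h => ?_⟩
    · exact mem_nb.2 ⟨a, hX1 a, hx⟩
    · rw [hU', mem_filter]
      refine ⟨mem_univ _, ?_⟩
      by_cases e : a = b
      · exact Or.inl e
      · refine Or.inr fun h => ?_
        obtain ⟨x, hx, hax⟩ := mem_nb.1 h
        rcases mem_YY.1 hx a hax with h1 | h1
        · exact e h1
        · exact h1 (nb_mono (AA_mono hf.BU a) hb)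
    · rw [hU', mem_filter] at hb
      rcases hb.2 with h1 | h1
      · exact h1
      · exact absurd (mem_nb.2 ⟨b, hY1 b, h⟩) h1
  have hcost : ∑ z, w z * (W w (U' z) - W w (AA N U' z)) ≤
      ∑ b, w b * (W w (nb N (nb N (YY N U b))) - W w (nb N (YY N U b))) := by
    have e1 : ∑ z, w z * (W w (U' z) - W w (AA N U' z)) =
        ∑ b, w b * (W w (univ.filter fun x => b ∈ U' x) -
          W w (univ.filter fun x => b ∈ AA N U' x)) := by
      simp only [mul_sub]
      rw [Finset.sum_sub_distrib, Finset.sum_sub_distrib, dc w U', dc w (AA N U')]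
    rw [e1]
    refine Finset.sum_le_sum fun b _ => mul_le_mul_of_nonneg_left ?_ (hw0 b)
    have hbb : b ∈ nb N (YY N U b) := subset_nb hr _ (hY1 b)
    have s1 : W w (univ.filter fun x => b ∈ U' x) ≤
        w b + (W w univ - W w (nb N (YY N U b))) := by
      rw [← W_sdiff (subset_univ _), ← W_singleton w b]
      refine (W_mono hw0 ?_).trans (W_union_le hw0 _ _)
      intro x hx
      rw [mem_filter, hU', mem_filter] at hx
      rw [mem_union, mem_singleton, mem_sdiff]
      rcases hx.2.2 with h | h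
      · exact Or.inl h
      · exact Or.inr ⟨mem_univ _, h⟩
    have s2 : w b + (W w univ - W w (nb N (nb N (YY N U b)))) ≤
        W w (univ.filter fun x => b ∈ AA N U' x) := by
      rw [← W_sdiff (subset_univ _), ← W_singleton w b]
      refine W_two hw0 ?_ ?_ ?_
      · rw [Finset.disjoint_left]
        intro x hx hx'
        rw [mem_singleton] at hx
        subst hx
        exact (mem_sdiff.1 hx').2 (subset_nb hr _ hbb)
      · rw [singleton_subset_iff, mem_filter]
        refine ⟨mem_univ _, mem_AA.2 fun z hz => ?_⟩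
        rw [hU', mem_filter]
        refine ⟨mem_univ _, ?_⟩
        by_cases e : z = b
        · exact Or.inl e
        · exact Or.inr (hY2 b z hz e)
      · intro x hx
        rw [mem_filter]
        refine ⟨mem_univ _, mem_AA.2 fun z hz => ?_⟩
        rw [hU', mem_filter]
        refine ⟨mem_univ _, Or.inr fun h => ?_⟩
        exact (mem_sdiff.1 hx).2 (mem_nb.2 ⟨z, h, hz⟩)
    linarith
  have hg : ∀ (a : V) (X : Finset V), a ∈ X → (∀ z, a ∈ N z → z ≠ a → z ∉ nb N X) →
      W w (nb N (nb N X)) - W w (nb N X) < W w (nb N X) - W w X := by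
    intro a X ha h
    have := hG a X ha h
    rw [W_sdiff (subset_nb hr _), W_sdiff (subset_nb hr _)] at this
    exact this
  have hne : (univ : Finset V).Nonempty := univ_nonempty
  have h1 : ∑ a, w a * (W w (nb N (nb N (AA N B a))) - W w (nb N (AA N B a))) <
      ∑ a, w a * (W w (nb N (AA N B a)) - W w (AA N B a)) :=
    Finset.sum_lt_sum_of_nonempty hne fun a _ =>
      mul_lt_mul_of_pos_left (hg a _ (hX1 a) (hX2 a)) (hw a)
  have h2 : ∑ b, w b * (W w (nb N (nb N (YY N U b))) - W w (nb N (YY N U b))) <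
      ∑ b, w b * (W w (nb N (YY N U b)) - W w (YY N U b)) :=
    Finset.sum_lt_sum_of_nonempty hne fun b _ =>
      mul_lt_mul_of_pos_left (hg b _ (hY1 b) (hY2 b)) (hw b)
  have h3 := hmin B' U' hf'
  have h4 : oc N w B' U' = ∑ a, w a * (W w (nb N (nb N (AA N B a))) - W w (nb N (AA N B a))) +
      ∑ z, w z * (W w (U' z) - W w (AA N U' z)) := rfl
  linarith

end Vale.Agent.P038.H110
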