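import Vale.Agent.P038.H110.NoG
import Vale.Agent.P038.LeadS.Defs

/-!
# P038: L7 of the lead's plan, literal form (helper110)
-/

namespace Vale.Agent.P038.H110

open Finset

universe u

/-- L7: (G) is contradictory. -/
theorem no_G {V : Type u} [Fintype V] [DecidableEq V] [Nonempty V] (R : V → V → Prop)
    (hR : ∀ a, R a a) (hor : ∀ a b, R a b → R b a → a = b)
    (w : V → ℝ) (hw : ∀ a, 0 < w a)
    (hG : ∀ (a : V) (X : Finset V), a ∈ X → (∀ z, R z a → z ≠ a → z ∉ LeadS.N R X) →
      LeadS.W w (LeadS.N R (LeadS.N R X) \ LeadS.N R X) < LeadS.W w (LeadS.N R X \ X)) :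
    False := by
  classical
  have hN : ∀ X : Finset V, nb (fun a => univ.filter fun b => R a b) X = LeadS.N R X := by
    intro X
    ext z
    rw [mem_nb]
    simp [LeadS.N]
  refine no_G' (N := fun a => univ.filter fun b => R a b) (w := w) ?_ ?_ hw ?_
  · intro a
    simpa using hR a
  · intro a b h1 h2
    exact hor a b (by simpa using h1) (by simpa using h2)
  · intro a X ha h
    rw [hN] at h
    rw [hN, hN]
    exact hG a X ha fun z hz hne => h z (by simpa using hz) hne

end Vale.Agent.P038.H110
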