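import Mathlib

/-!
# P038: the inequality (★) of helper357 (note 22687), abstract finite form (helper110)

`N x` closed out-neighbourhoods (only membership is used here), rows `B z`, `U z`,
`G z = U z \ B z`.
-/

namespace Vale.Agent.P038.H110

open Finset

universe u

variable {V : Type u} [DecidableEq V]

/-- weight of a set -/
noncomputable def W (w : V → ℝ) (S : Finset V) : ℝ := ∑ v ∈ S, w v

theorem W_mono {w : V → ℝ} (hw : ∀ v, 0 ≤ w v) {S T : Finset V} (h : S ⊆ T) : W w S ≤ W w T :=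
  Finset.sum_le_sum_of_subset_of_nonneg h fun v _ _ => hw v

theorem W_nonneg {w : V → ℝ} (hw : ∀ v, 0 ≤ w v) (S : Finset V) : 0 ≤ W w S :=
  Finset.sum_nonneg fun v _ => hw v

theorem W_union {w : V → ℝ} {S T : Finset V} (h : Disjoint S T) :
    W w (S ∪ T) = W w S + W w T :=
  Finset.sum_union h

theorem W_union_inter (w : V → ℝ) (S T : Finset V) :
    W w (S ∪ T) + W w (S ∩ T) = W w S + W w T :=
  Finset.sum_union_inter

theorem W_sdiff {w : V → ℝ} {S T : Finset V} (h : T ⊆ S) :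
    W w (S \ T) = W w S - W w T := by
  have := Finset.sum_sdiff (f := w) h
  unfold W
  linarith

theorem W_empty (w : V → ℝ) : W w (∅ : Finset V) = 0 := Finset.sum_empty

theorem W_singleton (w : V → ℝ) (v : V) : W w ({v} : Finset V) = w v := Finset.sum_singleton _ _

theorem W_union_le {w : V → ℝ} (hw : ∀ v, 0 ≤ w v) (S T : Finset V) :
    W w (S ∪ T) ≤ W w S + W w T := by
  have := W_union_inter w S T
  have := W_nonneg hw (S ∩ T)
  linarith

/-- two disjoint pieces inside `R` -/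
theorem W_two {w : V → ℝ} (hw : ∀ v, 0 ≤ w v) {S T R : Finset V} (hd : Disjoint S T)
    (hS : S ⊆ R) (hT : T ⊆ R) : W w S + W w T ≤ W w R := by
  rw [← W_union hd]
  exact W_mono hw (union_subset hS hT)

/-- union of the closed out-neighbourhoods -/
def nb (N : V → Finset V) (T : Finset V) : Finset V := T.biUnion N

theorem mem_nb {N : V → Finset V} {T : Finset V} {v : V} : v ∈ nb N T ↔ ∃ x ∈ T, v ∈ N x :=
  Finset.mem_biUnion

theorem nb_mono {N : V → Finset V} {S T : Finset V} (h : S ⊆ T) : nb N S ⊆ nb N T := by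
  intro v hv
  rw [mem_nb] at hv ⊢
  obtain ⟨x, hx, hv⟩ := hv
  exact ⟨x, h hx, hv⟩

/-- (a) -/
theorem rowHall {N B U : V → Finset V} {w : V → ℝ} (hw : ∀ v, 0 ≤ w v)
    (hR : ∀ z, ∀ T ⊆ U z \ B z, W w T ≤ W w (nb N T \ nb N (B z))) (S : Finset V) :
    ∀ T : Finset V, (∀ s ∈ S, T ⊆ U s) →
      W w (T.filter fun x => ∃ s ∈ S, x ∉ B s) ≤
        W w ((nb N T).filter fun v => ∃ s ∈ S, v ∉ nb N (B s)) := by
  induction S using Finset.induction_on with
  | empty =>
    intro T _
    simp [W]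
  | insert s S hs ih =>
    intro T hT
    have h1 := hR s (T \ B s) (by
      intro x hx
      rw [mem_sdiff] at hx ⊢
      exact ⟨hT s (mem_insert_self _ _) hx.1, hx.2⟩)
    have h2 := ih (T ∩ B s)
      (fun s' hs' => (inter_subset_left).trans (hT s' (mem_insert_of_mem hs')))
    have e1 : (T.filter fun x => ∃ s' ∈ insert s S, x ∉ B s') =
        (T \ B s) ∪ ((T ∩ B s).filter fun x => ∃ s' ∈ S, x ∉ B s') := by
      ext x
      simp only [mem_filter, mem_union, mem_sdiff, mem_inter, mem_insert, exists_eq_or_imp]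
      tauto
    have d1 : Disjoint (T \ B s) ((T ∩ B s).filter fun x => ∃ s' ∈ S, x ∉ B s') := by
      rw [Finset.disjoint_left]
      intro x hx hx'
      rw [mem_sdiff] at hx
      rw [mem_filter, mem_inter] at hx'
      exact hx.2 hx'.1.2
    have h3 := W_two hw (S := nb N (T \ B s) \ nb N (B s))
      (T := (nb N (T ∩ B s)).filter fun v => ∃ s' ∈ S, v ∉ nb N (B s'))
      (R := (nb N T).filter fun v => ∃ s' ∈ insert s S, v ∉ nb N (B s'))
      (by
        rw [Finset.disjoint_left]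
        intro x hx hx'
        rw [mem_sdiff] at hx
        rw [mem_filter] at hx'
        exact hx.2 (nb_mono inter_subset_right hx'.1))
      (by
        intro x hx
        rw [mem_sdiff] at hx
        rw [mem_filter]
        exact ⟨nb_mono sdiff_subset hx.1, s, mem_insert_self _ _, hx.2⟩)
      (by
        intro x hx
        rw [mem_filter] at hx ⊢
        obtain ⟨hx1, s', hs', hx2⟩ := hx
        exact ⟨nb_mono inter_subset_left hx1, s', mem_insert_of_mem hs', hx2⟩)
    rw [e1, W_union d1]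
    linarith

variable [Fintype V]

/-- row of `A U` -/
def AA (N U : V → Finset V) (z : V) : Finset V :=
  univ.filter fun b => ∀ z', z ∈ N z' → b ∈ U z'

theorem mem_AA {N U : V → Finset V} {z b : V} :
    b ∈ AA N U z ↔ ∀ z', z ∈ N z' → b ∈ U z' := by
  simp [AA]

/-- (b) -/
theorem colHall {N B U : V → Finset V} {w : V → ℝ} (hw : ∀ v, 0 ≤ w v)
    (hC : ∀ x, ∀ T : Finset V, (∀ z ∈ T, x ∈ U z ∧ x ∉ B z) →
      W w T ≤ W w ((nb N T).filter fun z => x ∈ AA N U z)) (S : Finset V) :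
    ∀ T : Finset V, (∀ z ∈ T, ∀ x ∈ S, x ∉ B z) →
      W w (T.filter fun z => ∃ x ∈ S, x ∈ U z) ≤
        W w ((nb N T).filter fun z => ∃ x ∈ S, x ∈ AA N U z) := by
  induction S using Finset.induction_on with
  | empty =>
    intro T _
    simp [W]
  | insert s S hs ih =>
    intro T hT
    have h1 := hC s (T.filter fun z => s ∈ U z) (by
      intro z hz
      rw [mem_filter] at hz
      exact ⟨hz.2, hT z hz.1 s (mem_insert_self _ _)⟩)
    have h2 := ih (T.filter fun z => s ∉ U z)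
      (fun z hz x hx => hT z (mem_filter.1 hz).1 x (mem_insert_of_mem hx))
    have e1 : (T.filter fun z => ∃ x ∈ insert s S, x ∈ U z) =
        (T.filter fun z => s ∈ U z) ∪
          ((T.filter fun z => s ∉ U z).filter fun z => ∃ x ∈ S, x ∈ U z) := by
      ext x
      simp only [mem_filter, mem_union, mem_insert, exists_eq_or_imp]
      tauto
    have d1 : Disjoint (T.filter fun z => s ∈ U z)
        ((T.filter fun z => s ∉ U z).filter fun z => ∃ x ∈ S, x ∈ U z) := by
      rw [Finset.disjoint_left]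
      intro x hx hx'
      rw [mem_filter] at hx
      rw [mem_filter, mem_filter] at hx'
      exact hx'.1.2 hx.2
    have h3 := W_two hw (S := (nb N (T.filter fun z => s ∈ U z)).filter fun z => s ∈ AA N U z)
      (T := (nb N (T.filter fun z => s ∉ U z)).filter fun z => ∃ x ∈ S, x ∈ AA N U z)
      (R := (nb N T).filter fun z => ∃ x ∈ insert s S, x ∈ AA N U z)
      (by
        rw [Finset.disjoint_left]
        intro x hx hx'
        rw [mem_filter] at hx hx'
        obtain ⟨z', hz', hxz'⟩ := mem_nb.1 hx'.1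
        rw [mem_filter] at hz'
        exact hz'.2 (mem_AA.1 hx.2 z' hxz'))
      (by
        intro x hx
        rw [mem_filter] at hx ⊢
        exact ⟨nb_mono (filter_subset _ _) hx.1, s, mem_insert_self _ _, hx.2⟩)
      (by
        intro x hx
        rw [mem_filter] at hx ⊢
        obtain ⟨hx1, s', hs', hx2⟩ := hx
        exact ⟨nb_mono (filter_subset _ _) hx1, s', mem_insert_of_mem hs', hx2⟩)
    rw [e1, W_union d1]
    linarith

omit [Fintype V] in
/-- (d) layer cake -/
theorem layer {N : V → Finset V} {w : V → ℝ} (hw : ∀ v, 0 ≤ w v) :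
    ∀ (n : ℕ) (Q K : Finset V) (a b : V → ℝ), Q.card = n → (∀ z ∈ K, 0 ≤ b z) →
      (∀ q ∈ Q, 0 ≤ a q) → (∀ q ∈ Q, ∀ z ∈ K, z ∈ N q → a q ≤ b z) →
      (∀ T ⊆ Q, W w T ≤ W w (nb N T ∩ K)) →
      ∑ q ∈ Q, w q * a q ≤ ∑ z ∈ K, w z * b z := by
  intro n
  induction n with
  | zero =>
    intro Q K a b hQ hb _ _ _
    rw [Finset.card_eq_zero.1 hQ, sum_empty]
    exact sum_nonneg fun z hz => mul_nonneg (hw z) (hb z hz)
  | succ n ih =>
    intro Q K a b hQ hb ha hab hall
    have hne : Q.Nonempty := by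
      rw [← Finset.card_pos]
      omega
    obtain ⟨q0, hq0, hmin⟩ := Finset.exists_min_image Q a hne
    set α := a q0 with hα
    have hα0 : 0 ≤ α := ha q0 hq0
    set K1 := nb N Q ∩ K with hK1
    have hK1K : K1 ⊆ K := inter_subset_right
    have hbK1 : ∀ z ∈ K1, α ≤ b z := by
      intro z hz
      obtain ⟨hz1, hz2⟩ := mem_inter.1 hz
      obtain ⟨q, hq, hzq⟩ := mem_nb.1 hz1
      exact (hmin q hq).trans (hab q hq z hz2 hzq)
    have h1 := ih (Q.erase q0) K1 (fun q => a q - α) (fun z => b z - α)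
      (by rw [Finset.card_erase_of_mem hq0]; omega)
      (fun z hz => sub_nonneg.2 (hbK1 z hz))
      (fun q hq => sub_nonneg.2 (hmin q (mem_of_mem_erase hq)))
      (fun q hq z hz hzq => by
        have := hab q (mem_of_mem_erase hq) z (hK1K hz) hzq
        show a q - α ≤ b z - α
        linarith)
      (fun T hT => by
        have hTQ : T ⊆ Q := hT.trans (erase_subset _ _)
        refine (hall T hTQ).trans (W_mono hw ?_)
        intro z hz
        obtain ⟨hz1, hz2⟩ := mem_inter.1 hz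
        exact mem_inter.2 ⟨hz1, mem_inter.2 ⟨nb_mono hTQ hz1, hz2⟩⟩)
    have h2 : ∑ q ∈ Q, w q * a q = α * W w Q + ∑ q ∈ Q.erase q0, w q * (a q - α) := by
      have h3 : ∑ q ∈ Q, w q * (a q - α) = ∑ q ∈ Q.erase q0, w q * (a q - α) := by
        rw [← Finset.add_sum_erase Q _ hq0]
        simp [hα]
      rw [← h3, W, Finset.mul_sum, ← Finset.sum_add_distrib]
      exact Finset.sum_congr rfl fun q _ => by ring
    have h4 : ∑ z ∈ K1, w z * b z = α * W w K1 + ∑ z ∈ K1, w z * (b z - α) := by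
      rw [W, Finset.mul_sum, ← Finset.sum_add_distrib]
      exact Finset.sum_congr rfl fun q _ => by ring
    have h5 : ∑ z ∈ K1, w z * b z ≤ ∑ z ∈ K, w z * b z :=
      Finset.sum_le_sum_of_subset_of_nonneg hK1K fun z hz _ => mul_nonneg (hw z) (hb z hz)
    have h6 : α * W w Q ≤ α * W w K1 := mul_le_mul_of_nonneg_left (hall Q subset_rfl) hα0
    linarith

/-- the value `m` -/
noncomputable def mval (N : V → Finset V) (w : V → ℝ) (β P S : Finset V) : ℝ :=
  P.powerset.sup' ⟨∅, empty_mem_powerset _⟩ fun T => W w T - W w ((nb N T \ β) \ S)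

omit [Fintype V] in
theorem le_mval {N : V → Finset V} {w : V → ℝ} {β P S T : Finset V} (h : T ⊆ P) :
    W w T - W w ((nb N T \ β) \ S) ≤ mval N w β P S :=
  Finset.le_sup' (f := fun T => W w T - W w ((nb N T \ β) \ S)) (mem_powerset.2 h)

omit [Fintype V] in
theorem exists_mval (N : V → Finset V) (w : V → ℝ) (β P S : Finset V) :
    ∃ T ⊆ P, mval N w β P S = W w T - W w ((nb N T \ β) \ S) := by
  obtain ⟨T, hT, h⟩ := Finset.exists_mem_eq_sup' (s := P.powerset)
    ⟨∅, empty_mem_powerset _⟩ (fun T => W w T - W w ((nb N T \ β) \ S))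
  exact ⟨T, mem_powerset.1 hT, h⟩

omit [Fintype V] in
theorem mval_mono {N : V → Finset V} {w : V → ℝ} (hw : ∀ v, 0 ≤ w v) {β P S S' : Finset V}
    (h : S ⊆ S') : mval N w β P S ≤ mval N w β P S' := by
  obtain ⟨T, hT, e⟩ := exists_mval N w β P S
  rw [e]
  refine le_trans ?_ (le_mval (S := S') hT)
  have := W_mono hw (sdiff_subset_sdiff (subset_refl (nb N T \ β)) h)
  linarith

omit [Fintype V] in
theorem mval_step {N : V → Finset V} {w : V → ℝ} (hw : ∀ v, 0 ≤ w v) (β P S : Finset V) (u : V) :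
    mval N w β P (insert u S) ≤ mval N w β P S + if u ∈ nb N P \ β then w u else 0 := by
  obtain ⟨T, hT, e⟩ := exists_mval N w β P (insert u S)
  rw [e]
  have h1 := le_mval (N := N) (w := w) (β := β) (S := S) hT
  have h2 : W w ((nb N T \ β) \ S) ≤
      W w ((nb N T \ β) \ insert u S) + if u ∈ nb N P \ β then w u else 0 := by
    split_ifs with hu
    · rw [← W_singleton w u]
      refine le_trans (W_mono hw ?_) (W_union_le hw _ _)
      intro v hv
      rw [mem_union, mem_sdiff, mem_singleton, mem_insert]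
      rw [mem_sdiff] at hv
      tauto
    · rw [add_zero]
      refine W_mono hw ?_
      intro v hv
      rw [mem_sdiff] at hv ⊢
      refine ⟨hv.1, ?_⟩
      rw [mem_insert]
      rintro (rfl | h)
      · exact hu (mem_sdiff.2 ⟨nb_mono hT (mem_sdiff.1 hv.1).1, (mem_sdiff.1 hv.1).2⟩)
      · exact hv.2 h
  linarith

theorem mval_univ {N : V → Finset V} {w : V → ℝ} (hw : ∀ v, 0 ≤ w v) (β P : Finset V) :
    mval N w β P univ = W w P := by
  apply le_antisymm
  · obtain ⟨T, hT, e⟩ := exists_mval N w β P univ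
    rw [e]
    have h1 := W_mono hw hT
    have h2 := W_nonneg hw ((nb N T \ β) \ univ)
    linarith
  · have h1 := le_mval (N := N) (w := w) (β := β) (S := univ) (subset_refl P)
    have h2 : (nb N P \ β) \ univ = ∅ := by
      ext v
      simp
    rw [h2, W_empty] at h1
    linarith

omit [Fintype V] in
theorem mval_empty_nonneg (N : V → Finset V) (w : V → ℝ) (β P : Finset V) :
    0 ≤ mval N w β P ∅ := by
  have h1 := le_mval (N := N) (w := w) (β := β) (S := ∅) (empty_subset P)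
  have h2 : (nb N ∅ \ β) \ ∅ = ∅ := by
    ext v
    simp [nb]
  rw [h2, W_empty] at h1
  linarith

omit [Fintype V] in
theorem mval_empty_nonpos {N : V → Finset V} {w : V → ℝ} {β P : Finset V}
    (h : ∀ T ⊆ P, W w T ≤ W w (nb N T \ β)) : mval N w β P ∅ ≤ 0 := by
  obtain ⟨T, hT, e⟩ := exists_mval N w β P ∅
  rw [e, sdiff_empty]
  linarith [h T hT]

omit [Fintype V] in
/-- (M) -/
theorem mval_M {N : V → Finset V} {w : V → ℝ} (hw : ∀ v, 0 ≤ w v) {β Bz P G S : Finset V} {u : V}
    (hβ : β ⊆ nb N Bz) (hG : Disjoint G Bz) (hPG : P \ Bz ⊆ G) (hu : u ∉ nb N Bz) (huS : u ∉ S) :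
    mval N w β P (insert u S) + mval N w (nb N Bz) G S ≤
      mval N w β P S + mval N w (nb N Bz) G (insert u S) := by
  obtain ⟨T, hT, e⟩ := exists_mval N w β P (insert u S)
  obtain ⟨T', hT', e'⟩ := exists_mval N w (nb N Bz) G S
  set T1 := (T ∩ Bz) ∪ (T ∩ T') with hT1
  set T2 := T' ∪ (T \ Bz) with hT2
  have s1 : T1 ⊆ P := union_subset (inter_subset_left.trans hT) (inter_subset_left.trans hT)
  have s2 : T2 ⊆ G := union_subset hT' ((sdiff_subset_sdiff hT subset_rfl).trans hPG)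
  have h1 := le_mval (N := N) (w := w) (β := β) (S := S) s1
  have h2 := le_mval (N := N) (w := w) (β := nb N Bz) (S := insert u S) s2
  have hT'B : ∀ x ∈ T', x ∉ Bz := fun x hx => Finset.disjoint_left.1 hG (hT' hx)
  have w1 : W w T1 + W w T2 = W w T + W w T' := by
    rw [← W_union_inter w T1 T2, ← W_union_inter w T T']
    congr 2
    · ext x
      simp only [hT1, hT2, mem_union, mem_inter, mem_sdiff]
      tauto
    · ext x
      have := hT'B x
      simp only [hT1, hT2, mem_union, mem_inter, mem_sdiff]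
      tauto
  set c1 := (nb N T1 \ β) \ S
  set c2 := (nb N T2 \ nb N Bz) \ insert u S
  set c3 := (nb N T \ β) \ insert u S
  set c4 := (nb N T' \ nb N Bz) \ S
  have n1 : ∀ v, v ∈ nb N T1 → v ∉ nb N Bz → v ∈ nb N T ∧ v ∈ nb N T' := by
    intro v hv hvB
    obtain ⟨x, hx, hvx⟩ := mem_nb.1 hv
    rw [hT1, mem_union, mem_inter, mem_inter] at hx
    rcases hx with hx | hx
    · exact absurd (mem_nb.2 ⟨x, hx.2, hvx⟩) hvB
    · exact ⟨mem_nb.2 ⟨x, hx.1, hvx⟩, mem_nb.2 ⟨x, hx.2, hvx⟩⟩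
  have n1' : ∀ v, v ∈ nb N T1 → v ∈ nb N T := by
    intro v hv
    exact nb_mono (union_subset inter_subset_left inter_subset_left) hv
  have n2 : ∀ v, v ∈ nb N T2 → v ∈ nb N T' ∨ v ∈ nb N T := by
    intro v hv
    obtain ⟨x, hx, hvx⟩ := mem_nb.1 hv
    rw [hT2, mem_union, mem_sdiff] at hx
    rcases hx with hx | hx
    · exact Or.inl (mem_nb.2 ⟨x, hx, hvx⟩)
    · exact Or.inr (mem_nb.2 ⟨x, hx.1, hvx⟩)
  have i1 : c1 ∪ c2 ⊆ c3 ∪ c4 := by
    intro v hv
    simp only [c1, c2, c3, c4, mem_union, mem_sdiff, mem_insert] at hv ⊢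
    rcases hv with ⟨⟨hv1, hv2⟩, hv3⟩ | ⟨⟨hv1, hv2⟩, hv3⟩
    · by_cases hvu : v = u
      · subst hvu
        exact Or.inr ⟨⟨(n1 v hv1 hu).2, hu⟩, hv3⟩
      · exact Or.inl ⟨⟨n1' v hv1, hv2⟩, fun h => h.elim hvu hv3⟩
    · rcases n2 v hv1 with h | h
      · exact Or.inr ⟨⟨h, hv2⟩, fun h' => hv3 (Or.inr h')⟩
      · exact Or.inl ⟨⟨h, fun h' => hv2 (hβ h')⟩, hv3⟩
  have i2 : c1 ∩ c2 ⊆ c3 ∩ c4 := by
    intro v hv
    simp only [c1, c2, c3, c4, mem_inter, mem_sdiff, mem_insert] at hv ⊢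
    obtain ⟨⟨⟨hv1, hv2⟩, hv3⟩, ⟨⟨hv4, hv5⟩, hv6⟩⟩ := hv
    have := n1 v hv1 hv5
    exact ⟨⟨⟨this.1, hv2⟩, hv6⟩, ⟨⟨this.2, hv5⟩, hv3⟩⟩
  have w2 : W w c1 + W w c2 ≤ W w c3 + W w c4 := by
    rw [← W_union_inter w c1 c2, ← W_union_inter w c3 c4]
    exact add_le_add (W_mono hw i1) (W_mono hw i2)
  rw [e, e']
  linarith

end Vale.Agent.P038.H110
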