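import Vale.Agent.P038.H110.Star

/-!
# P038: (★) of helper357, assembly (helper110)
-/

namespace Vale.Agent.P038.H110

open Finset

universe u

variable {V : Type u} [DecidableEq V] [Fintype V]

section eps

variable (e : V ≃ Fin (Fintype.card V))

/-- initial segments of the enumeration -/
def seg (k : ℕ) : Finset V := univ.filter fun v => (e v : ℕ) < k

theorem mem_seg {k : ℕ} {v : V} : v ∈ seg e k ↔ (e v : ℕ) < k := by
  simp [seg]

theorem seg_zero : seg e 0 = ∅ := by
  ext v
  simp [mem_seg]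

theorem seg_card : seg e (Fintype.card V) = univ := by
  ext v
  simp [mem_seg]

theorem seg_succ (u : V) : seg e ((e u : ℕ) + 1) = insert u (seg e (e u : ℕ)) := by
  ext v
  rw [mem_insert, mem_seg, mem_seg, Nat.lt_succ_iff_lt_or_eq]
  constructor
  · rintro (h | h)
    · exact Or.inr h
    · exact Or.inl (e.injective (Fin.ext h))
  · rintro (rfl | h)
    · exact Or.inr rfl
    · exact Or.inl h

theorem tele (f : Finset V → ℝ) :
    ∑ u, (f (insert u (seg e (e u : ℕ))) - f (seg e (e u : ℕ))) = f univ - f ∅ := by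
  have h1 : ∑ u, (f (insert u (seg e (e u : ℕ))) - f (seg e (e u : ℕ))) =
      ∑ u, (fun i : Fin (Fintype.card V) => f (seg e ((i : ℕ) + 1)) - f (seg e (i : ℕ))) (e u) := by
    refine Finset.sum_congr rfl fun u _ => ?_
    show _ = f (seg e ((e u : ℕ) + 1)) - f (seg e (e u : ℕ))
    rw [seg_succ]
  rw [h1, Equiv.sum_comp e (fun i : Fin (Fintype.card V) =>
    f (seg e ((i : ℕ) + 1)) - f (seg e (i : ℕ)))]
  rw [← Finset.sum_range (fun i => f (seg e (i + 1)) - f (seg e i)),
    Finset.sum_range_sub (fun i => f (seg e i)), seg_card, seg_zero]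

/-- the defect `ε` -/
noncomputable def eps (N : V → Finset V) (w : V → ℝ) (β P : Finset V) (u : V) : ℝ :=
  (if u ∈ nb N P \ β then w u else 0) -
    (mval N w β P (insert u (seg e (e u : ℕ))) - mval N w β P (seg e (e u : ℕ)))

theorem eps_nonneg {N : V → Finset V} {w : V → ℝ} (hw : ∀ v, 0 ≤ w v) (β P : Finset V) (u : V) :
    0 ≤ eps e N w β P u := by
  have := mval_step (N := N) hw β P (seg e (e u : ℕ)) u
  unfold eps
  linarith

theorem eps_off {N : V → Finset V} {w : V → ℝ} (hw : ∀ v, 0 ≤ w v) {β P : Finset V} {u : V}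
    (hu : u ∉ nb N P \ β) : eps e N w β P u ≤ 0 := by
  have := mval_mono (N := N) (β := β) (P := P) hw
    (Finset.subset_insert u (seg e (e u : ℕ)))
  unfold eps
  rw [if_neg hu]
  linarith

theorem eps_sum {N : V → Finset V} {w : V → ℝ} (hw : ∀ v, 0 ≤ w v) (β P : Finset V) :
    ∑ u, eps e N w β P u = W w (nb N P \ β) - (W w P - mval N w β P ∅) := by
  unfold eps
  rw [Finset.sum_sub_distrib, tele e (mval N w β P), mval_univ hw]
  congr 1
  rw [← Finset.sum_filter]
  unfold W
  congr 1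
  ext u
  simp

end eps

/-- the row `P z` -/
def PP (N B U : V → Finset V) (z : V) : Finset V :=
  (AA N U z).filter fun x => ∃ z', z ∈ N z' ∧ x ∉ B z'

/-- the row `β z` of `A E B` -/
def bt (N B : V → Finset V) (z : V) : Finset V :=
  univ.filter fun v => ∀ z', z ∈ N z' → v ∈ nb N (B z')

/-- the row `K z` -/
def KK (N B U : V → Finset V) (z : V) : Finset V := nb N (PP N B U z) \ bt N B z

/-- the row `Q z` -/
def QQ (N B U : V → Finset V) (z : V) : Finset V := nb N (U z \ B z) \ nb N (B z)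

theorem mem_bt {N B : V → Finset V} {z v : V} :
    v ∈ bt N B z ↔ ∀ z', z ∈ N z' → v ∈ nb N (B z') := by
  simp [bt]

theorem mem_PP {N B U : V → Finset V} {z x : V} :
    x ∈ PP N B U z ↔ (∀ z', z ∈ N z' → x ∈ U z') ∧ ∃ z', z ∈ N z' ∧ x ∉ B z' := by
  rw [PP, mem_filter, mem_AA]

/-- (★) -/
theorem star {N B U : V → Finset V} {w : V → ℝ} (hw : ∀ v, 0 ≤ w v)
    (hR : ∀ z, ∀ T ⊆ U z \ B z, W w T ≤ W w (nb N T \ nb N (B z)))
    (hC : ∀ x, ∀ T : Finset V, (∀ z ∈ T, x ∈ U z ∧ x ∉ B z) →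
      W w T ≤ W w ((nb N T).filter fun z => x ∈ AA N U z)) :
    ∑ z, w z * (W w (PP N B U z) + W w (QQ N B U z)) ≤
      ∑ z, w z * (W w (KK N B U z) + W w (U z \ B z)) := by
  have e : V ≃ Fin (Fintype.card V) := Fintype.equivFin V
  -- row Hall for `K`
  have ha : ∀ z, ∀ T ⊆ PP N B U z, W w T ≤ W w (nb N T \ bt N B z) := by
    intro z T hT
    have h1 := rowHall hw hR (univ.filter fun z' => z ∈ N z') T (by
      intro s hs x hx
      exact (mem_PP.1 (hT hx)).1 s (by simpa using hs))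
    refine (W_mono hw ?_).trans (h1.trans (W_mono hw ?_))
    · intro x hx
      rw [mem_filter]
      obtain ⟨z', hz', hx'⟩ := (mem_PP.1 (hT hx)).2
      exact ⟨hx, z', by simpa using hz', hx'⟩
    intro v hv
    rw [mem_filter] at hv
    obtain ⟨hv1, s, hs, hv2⟩ := hv
    rw [mem_sdiff]
    refine ⟨hv1, fun h => hv2 (mem_bt.1 h s (by simpa using hs))⟩
  -- column Hall
  have hb : ∀ u, ∀ T ⊆ univ.filter (fun z' => u ∈ QQ N B U z'),
      W w T ≤ W w (nb N T ∩ univ.filter (fun z => u ∈ KK N B U z)) := by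
    intro u T hT
    have hT' : ∀ z' ∈ T, u ∈ nb N (U z' \ B z') ∧ u ∉ nb N (B z') := by
      intro z' hz'
      have := hT hz'
      rw [mem_filter, QQ, mem_sdiff] at this
      exact this.2
    have h1 := colHall hw hC (univ.filter fun x => u ∈ N x) T (by
      intro z' hz' x hx hxB
      exact (hT' z' hz').2 (mem_nb.2 ⟨x, hxB, by simpa using hx⟩))
    refine (W_mono hw ?_).trans (h1.trans (W_mono hw ?_))
    · intro z' hz'
      rw [mem_filter]
      obtain ⟨x, hx, hux⟩ := mem_nb.1 (hT' z' hz').1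
      exact ⟨hz', x, by simpa using hux, (mem_sdiff.1 hx).1⟩
    intro z hz
    rw [mem_filter] at hz
    obtain ⟨hz1, x, hx, hxA⟩ := hz
    have hux : u ∈ N x := by simpa using hx
    obtain ⟨z', hz', hzz'⟩ := mem_nb.1 hz1
    rw [mem_inter, mem_filter]
    refine ⟨hz1, mem_univ _, ?_⟩
    rw [KK, mem_sdiff]
    have hxB : x ∉ B z' := fun h => (hT' z' hz').2 (mem_nb.2 ⟨x, h, hux⟩)
    refine ⟨mem_nb.2 ⟨x, mem_PP.2 ⟨mem_AA.1 hxA, z', hzz', hxB⟩, hux⟩, fun h => ?_⟩
    exact (hT' z' hz').2 (mem_bt.1 h z' hzz')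
  -- the defects
  set εA : V → V → ℝ := fun z u => eps e N w (bt N B z) (PP N B U z) u with hεA
  set εB : V → V → ℝ := fun z u => eps e N w (nb N (B z)) (U z \ B z) u with hεB
  have hcmp : ∀ z' z u, z ∈ N z' → u ∈ KK N B U z → u ∈ QQ N B U z' → εB z' u ≤ εA z u := by
    intro z' z u hz hK hQ
    have huB : u ∉ nb N (B z') := (mem_sdiff.1 hQ).2
    have hm := mval_M (N := N) (w := w) hw (β := bt N B z) (Bz := B z') (P := PP N B U z)
      (G := U z' \ B z') (S := seg e (e u : ℕ)) (u := u)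
      (fun v hv => mem_bt.1 hv z' hz)
      (Finset.sdiff_disjoint)
      (by
        intro x hx
        rw [mem_sdiff] at hx ⊢
        exact ⟨(mem_PP.1 hx.1).1 z' hz, hx.2⟩)
      huB (by rw [mem_seg]; exact lt_irrefl _)
    simp only [hεA, hεB, eps]
    rw [if_pos (show u ∈ nb N (PP N B U z) \ bt N B z from hK),
      if_pos (show u ∈ nb N (U z' \ B z') \ nb N (B z') from hQ)]
    linarith
  have hlay : ∀ u, ∑ z, w z * εB z u ≤ ∑ z, w z * εA z u := by
    intro u
    have h1 := layer (N := N) hw _ (univ.filter (fun z' => u ∈ QQ N B U z'))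
      (univ.filter (fun z => u ∈ KK N B U z)) (fun z => εB z u) (fun z => εA z u) rfl
      (fun z _ => eps_nonneg e hw _ _ u) (fun z _ => eps_nonneg e hw _ _ u)
      (fun z' hz' z hz hzz' => hcmp z' z u hzz' (mem_filter.1 hz).2 (mem_filter.1 hz').2)
      (hb u)
    have h2 : ∑ z, w z * εB z u ≤
        ∑ z ∈ univ.filter (fun z' => u ∈ QQ N B U z'), w z * εB z u := by
      rw [Finset.sum_filter]
      refine Finset.sum_le_sum fun z _ => ?_
      split_ifs with h
      · exact le_rfl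
      · exact mul_nonpos_of_nonneg_of_nonpos (hw z) (eps_off e hw h)
    have h3 : ∑ z ∈ univ.filter (fun z => u ∈ KK N B U z), w z * εA z u ≤
        ∑ z, w z * εA z u :=
      Finset.sum_le_sum_of_subset_of_nonneg (filter_subset _ _)
        fun z _ _ => mul_nonneg (hw z) (eps_nonneg e hw _ _ u)
    linarith
  have hsum : ∑ z, w z * ∑ u, εB z u ≤ ∑ z, w z * ∑ u, εA z u := by
    simp only [Finset.mul_sum]
    rw [Finset.sum_comm, Finset.sum_comm (f := fun z u => w z * εA z u)]
    exact Finset.sum_le_sum fun u _ => hlay u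
  have hA : ∀ z, ∑ u, εA z u ≤ W w (KK N B U z) - W w (PP N B U z) := by
    intro z
    have h1 := eps_sum e (N := N) (w := w) hw (bt N B z) (PP N B U z)
    have h2 := mval_empty_nonpos (ha z)
    simp only [hεA]
    rw [h1]
    have h3 : W w (KK N B U z) = W w (nb N (PP N B U z) \ bt N B z) := rfl
    linarith
  have hB : ∀ z, W w (QQ N B U z) - W w (U z \ B z) ≤ ∑ u, εB z u := by
    intro z
    have h1 := eps_sum e (N := N) (w := w) hw (nb N (B z)) (U z \ B z)
    have h2 := mval_empty_nonneg N w (nb N (B z)) (U z \ B z)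
    simp only [hεB]
    rw [h1]
    have h3 : W w (QQ N B U z) = W w (nb N (U z \ B z) \ nb N (B z)) := rfl
    linarith
  have h1 : ∑ z, w z * (W w (QQ N B U z) - W w (U z \ B z)) ≤
      ∑ z, w z * (W w (KK N B U z) - W w (PP N B U z)) :=
    (Finset.sum_le_sum fun z _ => mul_le_mul_of_nonneg_left (hB z) (hw z)).trans
      (hsum.trans (Finset.sum_le_sum fun z _ => mul_le_mul_of_nonneg_left (hA z) (hw z)))
  have h2 : ∑ z, w z * (W w (KK N B U z) + W w (U z \ B z)) -
      ∑ z, w z * (W w (PP N B U z) + W w (QQ N B U z)) =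
      ∑ z, w z * (W w (KK N B U z) - W w (PP N B U z)) -
        ∑ z, w z * (W w (QQ N B U z) - W w (U z \ B z)) := by
    rw [← Finset.sum_sub_distrib, ← Finset.sum_sub_distrib]
    exact Finset.sum_congr rfl fun z _ => by ring
  linarith

end Vale.Agent.P038.H110
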